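import Vale.Agent.P281.H713.SA.Iface
import Vale.Agent.P299.H956.D1.Bridge
import Vale.Agent.P299.H956.D1.Pull2

/-! P281, theorem SA, block K: the pull back of a Kähler metric by a holomorphic immersion. -/

open scoped Manifold ContDiff ComplexOrder Topology
open Complex Vale.Agent.P272.K Vale.Agent.P299.D Vale.Agent.P299.H956

noncomputable section

namespace Vale.Agent.P281.H167.SA

section
variable {d n : ℕ} {N X : Type*} [TopologicalSpace N] [TopologicalSpace X]
  [ChartedSpace (Cm d) N] [ChartedSpace (Cm n) X]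
  [IsManifold 𝓘(ℂ, Cm d) ω N] [IsManifold 𝓘(ℂ, Cm n) ω X] {f : N → X}

/-- a holomorphic map with injective differentials has injective Jacobian matrices -/
lemma immersive_of_mfderiv (hf : ContMDiff 𝓘(ℂ, Cm d) 𝓘(ℂ, Cm n) ω f)
    (hi : ∀ y, Function.Injective (mfderiv 𝓘(ℂ, Cm d) 𝓘(ℂ, Cm n) f y)) : Immersive d n f := by
  intro e e' y h h' u hu
  have hc := at_chartAt (n := d) y
  have hc' := at_chartAt (n := n) (f y)
  have hf' : ContMDiffAt 𝓘(ℂ, Cm d) 𝓘(ℂ, Cm n) ω f y := hf.contMDiffAt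
  have h1 : jacF f (chartAt (Cm d) y) (chartAt (Cm n) (f y)) y =
      jacM e' (chartAt (Cm n) (f y)) (f y) * jacF f e e' y * jacM (chartAt (Cm d) y) e y := by
    rw [jacF_left hf' hc h hc', jacF_right hf' h h' hc']
  have h2 : (jacF f (chartAt (Cm d) y) (chartAt (Cm n) (f y)) y).mulVec
      ((jacM e (chartAt (Cm d) y) y).mulVec u) = 0 := by
    rw [h1, Matrix.mulVec_mulVec, Matrix.mul_assoc, jacM_mul h hc, Matrix.mul_one,
      ← Matrix.mulVec_mulVec, hu, Matrix.mulVec_zero]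
  have h3 := mfderiv_eq_jacF hf' ((jacM e (chartAt (Cm d) y) y).mulVec u)
  rw [h2] at h3
  have h4 : (jacM e (chartAt (Cm d) y) y).mulVec u = 0 := by
    exact hi y (h3.trans (map_zero (mfderiv 𝓘(ℂ, Cm d) 𝓘(ℂ, Cm n) f y)).symm)
  have h5 := congrArg ((jacM (chartAt (Cm d) y) e y).mulVec) h4
  rw [Matrix.mulVec_mulVec, jacM_mul h hc, Matrix.one_mulVec, Matrix.mulVec_zero] at h5
  exact h5

end

theorem pullPart : Vale.Agent.P281.H713.SA.PullPart := by
  intro n d X F _ _ _ _ _ _ g hg hi χ hχ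
  exact ⟨pullM g χ, isKahler_pullM hχ hg (immersive_of_mfderiv hg hi)⟩

end Vale.Agent.P281.H167.SA
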