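import Vale.Agent.P299.H882.Flat
import Vale.Agent.P299.H937.Boch

/-! P281, theorem SA, block X1: the Bochner inequality for holomorphic covariant tensors on a Kähler
manifold `(X, g)` with `Ric(g) = -θ`, `θ ≥ 0`. -/

open scoped Manifold ContDiff ComplexOrder Topology Matrix Kronecker
open Vale.Agent.P272.K Vale.Agent.P272.K.C2 Vale.Agent.P272.K.AMP Vale.Agent.P299
open Vale.Agent.P299.H954 Vale.Agent.P299.H937

set_option linter.all false

noncomputable section

namespace Vale.Agent.P281.H167.SA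

section mat

variable {n : ℕ} {ι : Type*} [Fintype ι] [DecidableEq ι] {z : Cm n}
  {G : Cm n → Matrix (Fin n) (Fin n) ℂ}

/-- curvature of the tensor power: an upper bound -/
theorem RmS_tp_le (p : ℕ) {H : Cm n → Matrix ι ι ℂ} (hH : MC 2 H z) (hp : (H z).PosDef) {c : ℂ}
    (hc : (c • H z - RmS G H z).PosSemidef) :
    (((p : ℂ) * c) • tp p (H z) - RmS G (fun y => tp p (H y)) z).PosSemidef := by
  induction p with
  | zero =>
    have : (fun y => tp 0 (H y)) = fun _ => 1 := by ext1 y; exact tp_zero_eq _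
    rw [this, RmS_const, Nat.cast_zero, zero_mul, zero_smul, sub_zero]
    exact Matrix.PosSemidef.zero
  | succ p ih =>
    have e : (fun y => tp (p + 1) (H y)) =
        fun y => (H y ⊗ₖ tp p (H y)).submatrix (consE ι p) (consE ι p) := by
      ext1 y; exact tp_succ p _
    rw [e, RmS_submatrix, RmS_kronecker hH (MC_tp p hH) hp.det_pos.ne' (tp_posDef p hp).det_pos.ne',
      tp_succ p (H z)]
    have e2 : ((((p + 1 : ℕ) : ℂ) * c) • (H z ⊗ₖ tp p (H z)) -
        (RmS G H z ⊗ₖ tp p (H z) + H z ⊗ₖ RmS G (fun y => tp p (H y)) z)) =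
        (c • H z - RmS G H z) ⊗ₖ tp p (H z) +
          H z ⊗ₖ (((p : ℂ) * c) • tp p (H z) - RmS G (fun y => tp p (H y)) z) := by
      ext ⟨a, b⟩ ⟨c, d⟩
      simp only [Matrix.add_apply, Matrix.sub_apply, Matrix.smul_apply, smul_eq_mul,
        Matrix.kroneckerMap_apply]
      push_cast
      ring
    have e3 : ∀ (A B : Matrix (ι × (Fin p → ι)) (ι × (Fin p → ι)) ℂ) (t : ℂ),
        t • (A.submatrix (consE ι p) (consE ι p)) - B.submatrix (consE ι p) (consE ι p) =
          (t • A - B).submatrix (consE ι p) (consE ι p) :=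
      fun _ _ _ => rfl
    rw [e3, e2]
    refine Matrix.PosSemidef.submatrix ?_ _
    exact (hc.kronecker (tp_posDef p hp).posSemidef).add (hp.posSemidef.kronecker ih)

/-- `G⁻¹ θ G⁻¹ ≤ tr(G⁻¹ θ) G⁻¹` -/
theorem inv_mul_inv_le {G θ : Matrix ι ι ℂ} (hG : G.PosDef) (hθ : θ.PosSemidef) :
    ((G⁻¹ * θ).trace • G⁻¹ - G⁻¹ * θ * G⁻¹).PosSemidef := by
  obtain ⟨B, hB⟩ := exists_factor hG.inv.posSemidef
  have hM : (B * θ * Bᴴ).PosSemidef := hθ.mul_mul_conjTranspose_same B
  have h1 := (trace_smul_one_sub_posSemidef hM).conjTranspose_mul_mul_same B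
  have h2 : (B * θ * Bᴴ).trace = (G⁻¹ * θ).trace := by
    rw [hB, Matrix.mul_assoc, Matrix.trace_mul_comm, Matrix.mul_assoc, Matrix.trace_mul_comm]
  have h3 : Bᴴ * ((B * θ * Bᴴ).trace • (1 : Matrix ι ι ℂ) - B * θ * Bᴴ) * B =
      (G⁻¹ * θ).trace • G⁻¹ - G⁻¹ * θ * G⁻¹ := by
    rw [h2, Matrix.mul_sub, Matrix.sub_mul, Matrix.mul_smul, Matrix.mul_one, Matrix.smul_mul, ← hB]
    congr 1
    calc Bᴴ * (B * θ * Bᴴ) * B = (Bᴴ * B) * θ * (Bᴴ * B) := by simp only [Matrix.mul_assoc]
      _ = _ := by rw [← hB]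
  rwa [h3] at h1

end mat

variable {n p : ℕ} {X : Type*} [TopologicalSpace X] [ChartedSpace (Cm n) X]
  {w θ : D.FormM n X} {φ : Chart n X → Cm n → ℝ} {s : D.Ten n p X} {e : Chart n X} {x : X}

/-- `RmS (dual w) ≤ tr_w θ dual w` if `Ric(w) = -θ`, `θ ≥ 0` -/
theorem RmS_dual_le (hw : IsKahler w) (hθ : (θ e (e x)).PosSemidef)
    (hric : D.ric w e (e x) = -θ e (e x)) (hx : At e x) :
    (((w e (e x))⁻¹ * θ e (e x)).trace • dual (w e) (e x) -
      RmS (w e) (dual (w e)) (e x)).PosSemidef := by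
  have hg := hw.posDef e x hx
  have h1 : RmS (w e) (dual (w e)) (e x) =
      ((w e (e x))⁻¹ * θ e (e x) * (w e (e x))⁻¹)ᵀ := by
    rw [RmS_dual (IsHermitian.MC hw.toIsHermitian hx) hg.det_pos.ne', RmS_self' hw hx, hric,
      Matrix.mul_neg, Matrix.neg_mul, Matrix.transpose_neg, neg_neg]
  have h2 := (inv_mul_inv_le hg hθ).transpose
  rw [Matrix.transpose_sub, Matrix.transpose_smul] at h2
  rw [h1]
  exact h2

theorem trE_nonneg (hw : IsHermitian w) (hθ : (θ e (e x)).PosSemidef) (hx : At e x) :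
    0 ≤ trE w θ e (e x) :=
  (Complex.le_def.1 (trace_mul_nonneg (hw.posDef e x hx).inv.posSemidef hθ)).1

variable [IsManifold 𝓘(ℂ, Cm n) ω X]

/-- `Δ|s|² ≥ |∇s|² - q tr_g θ |s|²` -/
theorem lap_normTenT (hw : IsKahler w) (hθ : ∀ e x, At e x → (θ e (e x)).PosSemidef)
    (hric : ∀ e x, At e x → D.ric w e (e x) = -θ e (e x)) (hφ : IsCanonicalMetric φ)
    (hs : D.IsTen p 0 s) (hx : At e x) :
    gradT w φ 0 s e (e x) - p * trE w θ e (e x) * normTen w φ 0 s x ≤
      lapX w (normTen w φ 0 s) x := by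
  have hwH := hw.toIsHermitian
  have hwP := hwH.posDef e x hx
  have hus := smooth_normTen hwH hφ hs
  have hS : MC 2 (rowT s e) (e x) := MC_of_analyticAt (rowT_analytic hs hx)
  have hφ2 : ContDiffAt ℝ 2 (φ e) (e x) := (hφ.smooth e x hx).of_le (by norm_cast)
  have hG : MC 2 (w e) (e x) := IsHermitian.MC hwH hx
  have hH : MC 2 (metL p 0 w φ e) (e x) := MC_metL hG hwP.det_pos.ne' hφ2
  have hHh : ∀ᶠ y in 𝓝 (e x), (metL p 0 w φ e y).IsHermitian := by
    filter_upwards [eventually_at hx] with y hy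
    have := (metL_posDef (p := p) (m := 0) (φ := φ) (hwH.posDef e _ hy.1)).isHermitian
    rwa [hy.2] at this
  have hue : ∀ᶠ y in 𝓝 (e x), normTen w φ 0 s (e.symm y) = (sqL w φ 0 s e y).re := by
    filter_upwards [eventually_at hx] with y hy
    have := normTen_eq hwH hφ hs hy.1
    rw [hy.2] at this
    rw [this, nTen_eq]
  have hcj : ∀ᶠ y in 𝓝 (e x), (starRingEnd ℂ) (sqL w φ 0 s e y) = sqL w φ 0 s e y := by
    filter_upwards [eventually_at hx] with y hy
    have := sqL_real (s := s) (m := 0) (φ := φ) (hwH.posDef e _ hy.1)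
    rw [hy.2] at this
    rw [this, Complex.conj_ofReal]
  rw [lapX_chart hwH hus hx hue hcj]
  have e1 : ∀ k l, dz k (dzb l (sqL w φ 0 s e)) (e x) =
      (nab k (rowT s e) (metL p 0 w φ e) (e x) * metL p 0 w φ e (e x) *
        (nab l (rowT s e) (metL p 0 w φ e) (e x))ᴴ) () () -
        (rowT s e (e x) * RM k l (metL p 0 w φ e) (e x) * (rowT s e (e x))ᴴ) () () := by
    intro k l
    have := D2_sandwich (k := k) (l := l) hS hH (holNear_of_analyticAt (rowT_analytic hs hx)) hHh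
      (metL_posDef hwP).det_pos.ne'
    have h2 := congrFun (congrFun this ()) ()
    rw [Matrix.sub_apply] at h2
    exact h2
  have e2 : ∑ l, ∑ k, (w e (e x))⁻¹ l k *
      (rowT s e (e x) * RM k l (metL p 0 w φ e) (e x) * (rowT s e (e x))ᴴ) () () =
      (rowT s e (e x) * RmS (w e) (metL p 0 w φ e) (e x) * (rowT s e (e x))ᴴ) () () := by
    rw [RmS]
    simp only [Matrix.mul_sum, Matrix.sum_mul, Matrix.mul_smul, Matrix.smul_mul,
      Matrix.sum_apply, Matrix.smul_apply, smul_eq_mul]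
  have hmet : metL p 0 w φ e = fun y => tp p (dual (w e) y) := by
    funext y
    rw [metL]
    simp
  have htr : ((w e (e x))⁻¹ * θ e (e x)).trace = ((trE w θ e (e x) : ℝ) : ℂ) := by
    have h1 : (θ e (e x)).IsHermitian := (hθ e x hx).isHermitian
    have h2 : star ((w e (e x))⁻¹ * θ e (e x)).trace = ((w e (e x))⁻¹ * θ e (e x)).trace := by
      rw [← Matrix.trace_conjTranspose, Matrix.conjTranspose_mul, h1.eq,
        hwP.inv.isHermitian.eq, Matrix.trace_mul_comm]
    exact (Complex.conj_eq_iff_re.1 h2).symm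
  have hle := RmS_tp_le (G := w e) p (MC_dual hG hwP.det_pos.ne') (dual_posDef hwP)
    (RmS_dual_le hw (hθ e x hx) (hric e x hx) hx)
  have hpos : 0 ≤ (rowT s e (e x) * ((((p : ℂ) * ((w e (e x))⁻¹ * θ e (e x)).trace) •
      tp p (dual (w e) (e x)) - RmS (w e) (fun y => tp p (dual (w e) y)) (e x))) *
        (rowT s e (e x))ᴴ) () () :=
    Matrix.PosSemidef.diag_nonneg (hle.mul_mul_conjTranspose_same _)
  have e4 : (rowT s e (e x) * ((((p : ℂ) * ((w e (e x))⁻¹ * θ e (e x)).trace) •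
      tp p (dual (w e) (e x)) - RmS (w e) (fun y => tp p (dual (w e) y)) (e x))) *
        (rowT s e (e x))ᴴ) () () = ((p * trE w θ e (e x) * normTen w φ 0 s x : ℝ) : ℂ) -
      (rowT s e (e x) * RmS (w e) (metL p 0 w φ e) (e x) * (rowT s e (e x))ᴴ) () () := by
    have h3 : sqL w φ 0 s e (e x) =
      (rowT s e (e x) * tp p (dual (w e) (e x)) * (rowT s e (e x))ᴴ) () () := by
      rw [sqL, hmet]
    rw [hmet, Matrix.mul_sub, Matrix.sub_mul, Matrix.sub_apply, Matrix.mul_smul, Matrix.smul_mul,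
      Matrix.smul_apply, smul_eq_mul, ← h3, htr, sqL_real hwP, normTen_eq hwH hφ hs hx]
    push_cast
    ring
  simp only [e1, mul_sub, Finset.sum_sub_distrib, e2]
  rw [e4] at hpos
  have h5 := (Complex.le_def.1 hpos).1
  rw [Complex.zero_re, Complex.sub_re, Complex.ofReal_re] at h5
  rw [Complex.sub_re, gradT]
  linarith

/-- **Bochner inequality.** `Δ log (|s|² + d) ≥ -q tr_g θ` -/
theorem bochT (hw : IsKahler w) (hθ : ∀ e x, At e x → (θ e (e x)).PosSemidef)
    (hθf : IsForm θ) (hric : ∀ e x, At e x → D.ric w e (e x) = -θ e (e x))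
    (hφ : IsCanonicalMetric φ) (hs : D.IsTen p 0 s) {d : ℝ} (hd : 0 < d)
    (x : X) : -(p * trX w θ x) ≤ lapX w (fun y => Real.log (normTen w φ 0 s y + d)) x := by
  set e : Chart n X := chartAt (Cm n) x with he
  have hx : At e x := AMP.at_chartAt x
  have hwH := hw.toIsHermitian
  have hwP := hwH.posDef e x hx
  have hus := smooth_normTen hwH hφ hs
  have one := one_ne_zero_inf
  set u : X → ℝ := normTen w φ 0 s with hu
  have hu0 : 0 ≤ u x := normTen_nonneg hwH x
  have hS : MC 1 (rowT s e) (e x) := MC_of_analyticAt (rowT_analytic hs hx)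
  have hφ1 : ContDiffAt ℝ 1 (φ e) (e x) := (hφ.smooth e x hx).of_le (by norm_cast)
  have hG : MC 1 (w e) (e x) := (IsHermitian.MC hwH hx).mono (by norm_num)
  have hH : MC 1 (metL p 0 w φ e) (e x) := MC_metL hG hwP.det_pos.ne' hφ1
  have hHh : ∀ᶠ y in 𝓝 (e x), (metL p 0 w φ e y).IsHermitian := by
    filter_upwards [eventually_at hx] with y hy
    have := (metL_posDef (p := p) (m := 0) (φ := φ) (hwH.posDef e _ hy.1)).isHermitian
    rwa [hy.2] at this
  set f : Cm n → ℝ := fun y => u (e.symm y) + d with hf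
  have hfx : f (e x) = u x + d := by simp only [hf]; rw [e.left_inv hx.2]
  have hf0 : 0 < f (e x) := by rw [hfx]; linarith
  have hu2 : ContDiffAt ℝ 2 (fun y => u (e.symm y)) (e x) := (hus e x hx).of_le (by norm_cast)
  have hf2 : ContDiffAt ℝ 2 f (e x) := hu2.add contDiffAt_const
  have hfc : (fun y => ((f y : ℝ) : ℂ)) =ᶠ[𝓝 (e x)] fun y => sqL w φ 0 s e y + (d : ℂ) := by
    filter_upwards [eventually_at hx] with y hy
    have h1 := normTen_eq hwH hφ hs hy.1
    have h2 := sqL_real (s := s) (m := 0) (φ := φ) (hwH.posDef e _ hy.1)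
    rw [hy.2] at h1 h2
    show (((u (e.symm y) + d : ℝ)) : ℂ) = _
    rw [Complex.ofReal_add, hu, h1, h2]
  have hsq : DifferentiableAt ℝ (sqL w φ 0 s e) (e x) :=
    (contDiff_sqL hwH hφ hs hx).differentiableAt (by simp)
  have hdz : ∀ k, dz k (fun y => ((f y : ℝ) : ℂ)) (e x) =
      (nab k (rowT s e) (metL p 0 w φ e) (e x) * metL p 0 w φ e (e x) * (rowT s e (e x))ᴴ) () () := by
    intro k
    rw [dz_congr k hfc, C2.dz_add k hsq (differentiableAt_const _)]
    have h1 := DM_sandwich' (k := k) hS hH ((holNear_of_analyticAt (rowT_analytic hs hx)).self k)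
      (metL_posDef hwP).det_pos.ne'
    have h2 := congrFun (congrFun h1 ()) ()
    rw [← h2]
    have h3 : dz k (fun _ : Cm n => (d : ℂ)) (e x) = 0 := by simp [dz]
    rw [h3, add_zero]
    rfl
  have hdzb : ∀ l, dzb l (fun y => ((f y : ℝ) : ℂ)) (e x) =
      (rowT s e (e x) * metL p 0 w φ e (e x) * (nab l (rowT s e) (metL p 0 w φ e) (e x))ᴴ) () () := by
    intro l
    rw [dzb_congr l hfc, C2.dzb_add l hsq (differentiableAt_const _)]
    have h1 := DMb_sandwich' (l := l) hS hH ((holNear_of_analyticAt (rowT_analytic hs hx)).self l)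
      hHh (metL_posDef hwP).det_pos.ne'
    have h2 := congrFun (congrFun h1 ()) ()
    rw [← h2]
    have h3 : dzb l (fun _ : Cm n => (d : ℂ)) (e x) = 0 := by simp [dzb]
    rw [h3, add_zero]
    rfl
  have hcf : cHess f (e x) = cHess (fun y => u (e.symm y)) (e x) := by
    rw [hf, C2.cHess_add hu2 contDiffAt_const, C2.cHess_const, add_zero]
  set T : ℝ := gradT w φ 0 s e (e x) with hT
  have htrX : trX w θ x = trE w θ e (e x) := trX_eq hwH hθf hx
  set t : ℝ := trE w θ e (e x) with ht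
  have ht0 : 0 ≤ t := trE_nonneg hwH (hθ e x hx) hx
  have hcs := cs_step (hwP.inv.posSemidef) (metL_posDef (p := p) (m := 0) (φ := φ) hwP).posSemidef
    (fun k => nab k (rowT s e) (metL p 0 w φ e) (e x)) (rowT s e (e x)) (u := u x) (d := d) hd
    (by
      have h1 := sqL_real (s := s) (m := 0) (φ := φ) hwP
      rw [← normTen_eq hwH hφ hs hx] at h1
      exact h1)
  have hlap := lap_normTenT hw hθ hric hφ hs hx
  have hq : lapX w (fun y => Real.log (u y + d)) x = (f (e x))⁻¹ * lapX w u x -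
      (f (e x) ^ 2)⁻¹ * (∑ l, ∑ k, (w e (e x))⁻¹ l k *
        ((nab k (rowT s e) (metL p 0 w φ e) (e x) * metL p 0 w φ e (e x) * (rowT s e (e x))ᴴ) () () *
        (rowT s e (e x) * metL p 0 w φ e (e x) *
          (nab l (rowT s e) (metL p 0 w φ e) (e x))ᴴ) () ())).re := by
    rw [lapX_eq hwH (smooth_log_normTen hwH hφ hs hd) hx, lapX_eq hwH hus hx]
    unfold lapE hess
    rw [trace_mul_cHess, trace_mul_cHess, ← Complex.re_ofReal_mul, ← Complex.re_ofReal_mul,
      ← Complex.sub_re]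
    congr 1
    simp only [Finset.mul_sum, ← Finset.sum_sub_distrib]
    refine Finset.sum_congr rfl fun l _ => Finset.sum_congr rfl fun k _ => ?_
    have h1 := C2.cHess_log hf2 hf0 k l
    rw [hcf, hdz, hdzb] at h1
    show (w e (e x))⁻¹ l k * cHess (fun y => Real.log (f y)) (e x) k l = _
    rw [h1]
    push_cast
    ring
  rw [hq, htrX, hfx]
  set g : ℝ := (∑ l, ∑ k, (w e (e x))⁻¹ l k *
        ((nab k (rowT s e) (metL p 0 w φ e) (e x) * metL p 0 w φ e (e x) * (rowT s e (e x))ᴴ) () () *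
        (rowT s e (e x) * metL p 0 w φ e (e x) *
          (nab l (rowT s e) (metL p 0 w φ e) (e x))ᴴ) () ())).re with hg
  have hud : 0 < u x + d := by linarith
  have h1 : ((u x + d) ^ 2)⁻¹ * g ≤ (u x + d)⁻¹ * T := by
    have h2 : ((u x + d) ^ 2)⁻¹ * g ≤ ((u x + d) ^ 2)⁻¹ * ((u x + d) * T) :=
      mul_le_mul_of_nonneg_left hcs (by positivity)
    have h3 : ((u x + d) ^ 2)⁻¹ * ((u x + d) * T) = (u x + d)⁻¹ * T := by
      field_simp
    rwa [h3] at h2
  have h4 : (u x + d)⁻¹ * (T - p * t * u x) ≤ (u x + d)⁻¹ * lapX w u x :=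
    mul_le_mul_of_nonneg_left hlap (inv_pos.2 hud).le
  have h5 : (u x + d)⁻¹ * u x ≤ 1 := by
    rw [inv_mul_le_iff₀ hud]; linarith
  have h6 : (u x + d)⁻¹ * (p * t * u x) ≤ p * t := by
    have : (u x + d)⁻¹ * (p * t * u x) = ((u x + d)⁻¹ * u x) * (p * t) := by ring
    rw [this]
    exact mul_le_of_le_one_left (by positivity) h5
  rw [mul_sub] at h4
  linarith

/-- the Bochner inequality `|∂S|² ≤ S ΔS + q S² tr_g θ` -/
def BochIneqT (θ g : D.FormM n X) (q : ℝ) (S : X → ℝ) : Prop :=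
  ∀ x, gradX g S S x ≤ S x * lapX g S x + q * S x ^ 2 * trX g θ x

/-- the Bochner inequality in the form used by the flatness theorem, for a function -/
theorem bochIneqT_of {g : D.FormM n X} (hg : IsKahler g) {q : ℝ} {S : X → ℝ}
    (hS : SmoothFn (n := n) S) (hS0 : ∀ x, 0 ≤ S x)
    (h : ∀ d : ℝ, 0 < d → ∀ x, -(q * trX g θ x) ≤ lapX g (fun y => Real.log (S y + d)) x) :
    BochIneqT θ g q S := by
  intro x
  have key : ∀ d : ℝ, 0 < d → gradX g S S x ≤ (S x + d) * lapX g S x +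
      q * (S x + d) ^ 2 * trX g θ x := by
    intro d hd
    have hpos : 0 < S x + d := by have := hS0 x; linarith
    have h1 := h d hd x
    have hder : ∀ t : ℝ, 0 < t + d → HasDerivAt (fun t => Real.log (t + d)) (t + d)⁻¹ t := by
      intro t ht
      have := (((hasDerivAt_id t).add_const d).log ht.ne')
      simpa using this
    have hd1 : ∀ t : ℝ, 0 < t + d → deriv (fun t => Real.log (t + d)) t = (t + d)⁻¹ := fun t ht =>
      (hder t ht).deriv
    have hd2 : deriv (deriv fun t => Real.log (t + d)) (S x) = -((S x + d) ^ 2)⁻¹ := by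
      have h2 : deriv (fun t => Real.log (t + d)) =ᶠ[𝓝 (S x)] fun t => (t + d)⁻¹ := by
        have : ∀ᶠ t in 𝓝 (S x), 0 < t + d :=
          (continuous_id.add continuous_const).continuousAt.eventually (lt_mem_nhds hpos)
        filter_upwards [this] with t ht using hd1 t ht
      rw [h2.deriv_eq]
      have := (((hasDerivAt_id (S x)).add_const d).inv hpos.ne').deriv
      have h3 : deriv (fun t : ℝ => (t + d)⁻¹) (S x) = deriv (fun t : ℝ => t + d)⁻¹ (S x) := rfl
      rw [h3]
      simpa [neg_div, div_eq_mul_inv] using this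
    have hcd : ContDiffAt ℝ 2 (fun t => Real.log (t + d)) (S x) :=
      (contDiffAt_id.add contDiffAt_const).log hpos.ne'
    rw [AMP.lapX_comp' hcd hS, hd1 _ hpos, hd2] at h1
    have h3 := mul_le_mul_of_nonneg_left h1 (sq_nonneg (S x + d))
    have e1 : (S x + d) ^ 2 * ((S x + d)⁻¹ * lapX g S x + -((S x + d) ^ 2)⁻¹ * gradX g S S x) =
        (S x + d) * lapX g S x - gradX g S S x := by
      field_simp
      ring
    rw [e1] at h3
    linarith
  have hlim : Filter.Tendsto (fun d : ℝ => (S x + d) * lapX g S x +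
      q * (S x + d) ^ 2 * trX g θ x) (𝓝[>] 0) (𝓝 (S x * lapX g S x +
      q * S x ^ 2 * trX g θ x)) := by
    have : Continuous fun d : ℝ => (S x + d) * lapX g S x +
      q * (S x + d) ^ 2 * trX g θ x := by fun_prop
    have h2 := this.tendsto 0
    simp only [add_zero] at h2
    exact h2.mono_left nhdsWithin_le_nhds
  refine ge_of_tendsto hlim ?_
  filter_upwards [self_mem_nhdsWithin] with d hd using key d hd

/-- **Block X1.** The Bochner inequality for holomorphic covariant `q`-tensors and a Kähler metric `g`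
with `Ric(g) = -θ`, `θ ≥ 0`. -/
theorem bochIneqT {g : D.FormM n X} (hg : IsKahler g)
    (hθ : ∀ e x, At e x → (θ e (e x)).PosSemidef) (hθf : IsForm θ)
    (hric : ∀ e x, At e x → D.ric g e (e x) = -θ e (e x)) (hφ : IsCanonicalMetric φ)
    (hs : D.IsTen p 0 s) : BochIneqT θ g p (normTen g φ 0 s) :=
  bochIneqT_of hg (smooth_normTen hg.toIsHermitian hφ hs)
    (fun x => normTen_nonneg hg.toIsHermitian x)
    fun d hd x => bochT hg hθ hθf hric hφ hs hd x

/-- `Ric(g) = -i∂∂̄φ` if `log det g = φ + c` -/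
theorem ric_of_logdet {g : D.FormM n X} (hdet : ∃ c : ℝ, ∀ e x, At e x →
      Real.log (g e (e x)).det.re = φ e (e x) + c) (hφ : IsCanonicalMetric φ) (hx : At e x) :
    D.ric g e (e x) = -cHess (φ e) (e x) :=
  ric_eq_theta hdet hφ hx

/-- **Block X1**, for a Kähler metric `g` with `log det g = φ + c`, `θ = i∂∂̄φ ≥ 0`. -/
theorem bochIneqT' {g : D.FormM n X} (hg : IsKahler g) (hφ : IsCanonicalMetric φ)
    (hθ : ∀ e x, At e x → (cHess (φ e) (e x)).PosSemidef)
    (hdet : ∃ c : ℝ, ∀ e x, At e x → Real.log (g e (e x)).det.re = φ e (e x) + c)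
    (hs : D.IsTen p 0 s) : BochIneqT (fun e z => cHess (φ e) z) g p (normTen g φ 0 s) :=
  bochIneqT hg hθ (INT.isClosedForm_canonical hφ).form (fun e x hx => ric_of_logdet hdet hφ hx) hφ hs

end Vale.Agent.P281.H167.SA
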