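import Vale.Agent.P281.H167.SA.X1
import Vale.Agent.P281.H713.SA.Iface
import Vale.Agent.P299.H882.FlatTen
import Vale.Agent.P299.H212.Wedge

/-! P281, theorem SA, block X2: from the analytic core of the flatness theorem (for the curvature form
`θ = i∂∂̄φ ≥ 0` of a metric `φ` on `K_X` instead of `Ric ≥ 0`) to `XPart`. -/

open scoped Manifold ContDiff ComplexOrder Topology Matrix
open Vale.Agent.P272.K Vale.Agent.P272.K.AMP Vale.Agent.P299
open Vale.Agent.P299.H937 (normTen nTen)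
open Vale.Agent.P299.H212 (nzSet)
open Vale.Agent.P299.H882 (xi)

set_option linter.all false

noncomputable section

namespace Vale.Agent.P281.H167.SA

/-- `i∂∂̄φ` -/
abbrev curvF {n : ℕ} {X : Type*} [TopologicalSpace X] (φ : Chart n X → Cm n → ℝ) : D.FormM n X :=
  fun e z => cHess (φ e) z

/-- **Analytic core of the flatness theorem for `θ = i∂∂̄φ`.** -/
def CoreT : Prop := ∀ (n : ℕ) (X : Type) [TopologicalSpace X] [T2Space X] [CompactSpace X]
  [ConnectedSpace X] [ChartedSpace (Cm n) X] [IsManifold 𝓘(ℂ, Cm n) ω X]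
  (χ : Chart n X → Cm n → Matrix (Fin n) (Fin n) ℂ) (_ : IsKahler χ)
  (φ : Chart n X → Cm n → ℝ) (_ : IsCanonicalMetric φ)
  (_ : ∀ e x, At e x → (cHess (φ e) (e x)).PosSemidef) (m m0 : ℝ) (_ : 0 ≤ m) (_ : 0 ≤ m0)
  (V : Set X) (_ : IsOpen V) (u : X → ℝ)
  (_ : ∀ g : Chart n X → Cm n → Matrix (Fin n) (Fin n) ℂ, IsKahler g →
    (∃ c : ℝ, ∀ e x, At e x → Real.log (g e (e x)).det.re = φ e (e x) + c) →
    ∃ S S0 : X → ℝ, SmoothFn (n := n) S ∧ SmoothFn (n := n) S0 ∧ (∀ x, 0 ≤ S x) ∧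
      (∀ x, 0 ≤ S0 x) ∧ (∀ x ∈ V, 0 < S x ∧ 0 < S0 x ∧ u x = Real.log (S x) - Real.log (S0 x)) ∧
      BochIneqT (curvF φ) g m S ∧ BochIneqT (curvF φ) g m0 S0)
  (ν : ℕ) (_ : ∀ e x, At e x → (cHess (φ e) (e x)).rank ≤ ν)
  (e : Chart n X) (x : X) (_ : At e x) (_ : x ∈ V) (_ : (cHess (φ e) (e x)).rank = ν)
  (v : Cm n) (_ : ∀ j, ∑ i, v i * cHess (φ e) (e x) i j = 0),
  ∑ i, xi u e (e x) i * v i = 0

section
variable {n q : ℕ} {X : Type} [TopologicalSpace X] [ChartedSpace (Cm n) X]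
  [IsManifold 𝓘(ℂ, Cm n) ω X] {g : Chart n X → Cm n → Matrix (Fin n) (Fin n) ℂ}
  {φ : Chart n X → Cm n → ℝ} {τ0 τ1 : D.Ten n q X}

/-- `log |τ1|² - log |τ0|²` -/
def uR (g : Chart n X → Cm n → Matrix (Fin n) (Fin n) ℂ) (φ : Chart n X → Cm n → ℝ)
    (τ0 τ1 : D.Ten n q X) : X → ℝ :=
  fun x => Real.log (normTen g φ 0 τ1 x) - Real.log (normTen g φ 0 τ0 x)

lemma normTen_pos (hg : IsHermitian g) (hφ : IsCanonicalMetric φ) (h : D.IsTen q 0 τ1) {x : X}
    (hx : x ∈ nzSet τ1) : 0 < normTen g φ 0 τ1 x := by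
  refine lt_of_le_of_ne (H937.normTen_nonneg hg x) fun h0 => ?_
  have hc := AMP.at_chartAt (n := n) x
  refine (H212.mem_nzSet h hc).1 hx ?_
  funext I
  exact (H937.normTen_eq_zero_iff hg hφ h hc).1 h0.symm I

lemma uR_eq (hg : IsHermitian g) (hφ : IsCanonicalMetric φ) (h0 : D.IsTen q 0 τ0)
    (h1 : D.IsTen q 0 τ1) {e : Chart n X} {x : X} (hx : At e x) (hx0 : x ∈ nzSet τ0) {c : ℂ}
    (hc0 : c ≠ 0) (hc : ∀ I, τ1 e (e x) I = c * τ0 e (e x) I) :
    uR g φ τ0 τ1 x = Real.log (‖c‖ ^ 2) := by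
  have e1 := H937.normTen_eq hg hφ h1 hx
  have e2 := H937.normTen_eq hg hφ h0 hx
  have p0 := normTen_pos hg hφ h0 hx0
  have hn := norm_pos_iff.2 hc0
  rw [uR, e1, H882.nTen_prop (g := g) (φ := φ) (m0 := 0) (m1 := 0) hc, ← e2]
  simp only [sub_self, zero_mul, Real.exp_zero, mul_one]
  rw [Real.log_mul (by positivity) p0.ne', add_sub_cancel_right]

lemma prop_const (hp : ∀ e x, At e x → ∀ I J, τ0 e (e x) I * τ1 e (e x) J =
    τ0 e (e x) J * τ1 e (e x) I) {e : Chart n X} {x : X} (hx : At e x) {J : Fin q → Fin n}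
    (hJ : τ0 e (e x) J ≠ 0) (I : Fin q → Fin n) :
    τ1 e (e x) I = τ1 e (e x) J / τ0 e (e x) J * τ0 e (e x) I := by
  have := hp e x hx I J
  field_simp
  linear_combination -this

/-- the structure used by the core -/
theorem uR_struct {χ : Chart n X → Cm n → Matrix (Fin n) (Fin n) ℂ} (hχ : IsKahler χ)
    (hφ : IsCanonicalMetric φ) (hθ : ∀ e x, At e x → (cHess (φ e) (e x)).PosSemidef)
    (h0 : D.IsTen q 0 τ0) (h1 : D.IsTen q 0 τ1)
    (hp : ∀ e x, At e x → ∀ I J, τ0 e (e x) I * τ1 e (e x) J = τ0 e (e x) J * τ1 e (e x) I)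
    (hg : IsKahler g)
    (hdet : ∃ c : ℝ, ∀ e x, At e x → Real.log (g e (e x)).det.re = φ e (e x) + c) :
    ∃ S S0 : X → ℝ, SmoothFn (n := n) S ∧ SmoothFn (n := n) S0 ∧ (∀ x, 0 ≤ S x) ∧
      (∀ x, 0 ≤ S0 x) ∧ (∀ x ∈ nzSet τ0 ∩ nzSet τ1, 0 < S x ∧ 0 < S0 x ∧
        uR χ φ τ0 τ1 x = Real.log (S x) - Real.log (S0 x)) ∧
      BochIneqT (curvF φ) g q S ∧ BochIneqT (curvF φ) g q S0 := by
  have hgH := hg.toIsHermitian
  have hχH := hχ.toIsHermitian
  refine ⟨normTen g φ 0 τ1, normTen g φ 0 τ0, H937.smooth_normTen hgH hφ h1,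
    H937.smooth_normTen hgH hφ h0, fun x => H937.normTen_nonneg hgH x,
    fun x => H937.normTen_nonneg hgH x, ?_, bochIneqT' hg hφ hθ hdet h1,
    bochIneqT' hg hφ hθ hdet h0⟩
  rintro x ⟨hx0, hx1⟩
  refine ⟨normTen_pos hgH hφ h1 hx1, normTen_pos hgH hφ h0 hx0, ?_⟩
  have hx := AMP.at_chartAt (n := n) x
  set e : Chart n X := chartAt (Cm n) x with he
  have hs0 := (H212.mem_nzSet h0 hx).1 hx0
  have hs1 := (H212.mem_nzSet h1 hx).1 hx1
  obtain ⟨J, hJ⟩ := Function.ne_iff.1 hs0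
  simp only [Pi.zero_apply] at hJ
  have hprop := prop_const hp hx hJ
  have hc0 : τ1 e (e x) J / τ0 e (e x) J ≠ 0 := by
    intro h
    apply hs1
    funext I
    rw [hprop I, h, zero_mul]
    rfl
  have r1 := uR_eq hχH hφ h0 h1 hx hx0 hc0 hprop
  have r2 := uR_eq hgH hφ h0 h1 hx hx0 hc0 hprop
  rw [r1, ← r2, uR]

/-- the covector of `log |τ1|² - log |τ0|²` is `∂f/f` -/
theorem xi_uR (hg : IsHermitian g) (hφ : IsCanonicalMetric φ) (h0 : D.IsTen q 0 τ0)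
    (h1 : D.IsTen q 0 τ1)
    (hp : ∀ e x, At e x → ∀ I J, τ0 e (e x) I * τ1 e (e x) J = τ0 e (e x) J * τ1 e (e x) I)
    {e : Chart n X} {x : X} (hx : At e x) {I : Fin q → Fin n} (hI : τ0 e (e x) I ≠ 0)
    (hI1 : τ1 e (e x) I ≠ 0) (i : Fin n) :
    xi (uR g φ τ0 τ1) e (e x) i = dz i (fun z => τ1 e z I / τ0 e z I) (e x) /
      (τ1 e (e x) I / τ0 e (e x) I) := by
  have a0 := h0.holo e x hx I
  have a1 := h1.holo e x hx I
  have hf : AnalyticAt ℂ (fun z => τ1 e z I / τ0 e z I) (e x) := a1.div a0 hI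
  have hloc : (fun y => ((uR g φ τ0 τ1 (e.symm y) : ℝ) : ℂ)) =ᶠ[𝓝 (e x)]
      fun y => ((Real.log (‖τ1 e y I / τ0 e y I‖ ^ 2) : ℝ) : ℂ) := by
    filter_upwards [a0.continuousAt.eventually_ne hI, a1.continuousAt.eventually_ne hI1,
      hx.nhds_target] with z hz1 hz2 hz4
    have hz : At e (e.symm z) := At.of_target hx.1 hz4
    have er : e (e.symm z) = z := e.right_inv hz4
    have hn : e.symm z ∈ nzSet τ0 := by
      refine (H212.mem_nzSet h0 hz).2 fun h => hz1 ?_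
      rw [er] at h
      rw [h]; rfl
    have hz1' : τ0 e (e (e.symm z)) I ≠ 0 := by rwa [er]
    have := uR_eq hg hφ h0 h1 hz hn (c := τ1 e (e (e.symm z)) I / τ0 e (e (e.symm z)) I)
      (by rw [er]; exact div_ne_zero hz2 hz1) (prop_const hp hz hz1')
    rw [this, er]
  have hne : τ1 e (e x) I / τ0 e (e x) I ≠ 0 := div_ne_zero hI1 hI
  unfold xi
  rw [INT.dz_congr hloc]
  exact H882.dz_log_norm_sq (f := fun z => τ1 e z I / τ0 e z I) hf.differentiableAt hne i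

end

lemma fderiv_eq_sum_dz {n : ℕ} {f : Cm n → ℂ} {z : Cm n} (hf : DifferentiableAt ℂ f z)
    (v : Cm n) : fderiv ℂ f z v = ∑ i, dz i f z * v i := by
  have h1 : v = ∑ i, v i • (Pi.single i (1 : ℂ) : Cm n) := by
    funext j
    simp [Finset.sum_apply, Pi.single_apply]
  conv_lhs => rw [h1]
  rw [map_sum]
  refine Finset.sum_congr rfl fun i _ => ?_
  rw [map_smul, dz_of_holo hf, smul_eq_mul, mul_comm]

theorem xPart_of_core (hC : CoreT) : Vale.Agent.P281.H713.SA.XPart := by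
  intro n q X _ _ _ _ _ _ χ hχ φ hφ hθ ν hν τ0 τ1 h0 h1 hp e x hx I hI hr v hv
  have a0 := h0.holo e x hx I
  have a1 := h1.holo e x hx I
  -- make the quotient nonzero at `x`
  obtain ⟨c, hc⟩ : ∃ c : ℂ, τ1 e (e x) I + c * τ0 e (e x) I ≠ 0 := by
    by_cases h : τ1 e (e x) I = 0
    · exact ⟨1, by rw [h, zero_add, one_mul]; exact hI⟩
    · exact ⟨0, by rwa [zero_mul, add_zero]⟩
  set τ2 : D.Ten n q X := fun e z I => τ1 e z I + c * τ0 e z I with hτ2
  have h2 : D.IsTen q 0 τ2 := by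
    constructor
    · intro e x hx I
      exact (h1.holo e x hx I).add (analyticAt_const.mul (h0.holo e x hx I))
    · intro e e' x hx hx' I
      have r0 := h0.change e e' x hx hx' I
      have r1 := h1.change e e' x hx hx' I
      rw [pow_zero, one_mul] at r0 r1 ⊢
      simp only [hτ2]
      rw [r0, r1]
      simp only [D.tenPull, mul_add, Finset.sum_add_distrib, Finset.mul_sum]
      congr 1
      exact Finset.sum_congr rfl fun K _ => by ring
  have hp2 : ∀ e x, At e x → ∀ I J, τ0 e (e x) I * τ2 e (e x) J =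
      τ0 e (e x) J * τ2 e (e x) I := by
    intro e x hx I J
    simp only [hτ2]
    linear_combination hp e x hx I J
  have hI2 : τ2 e (e x) I ≠ 0 := hc
  have hmem : x ∈ nzSet τ0 ∩ nzSet τ2 := by
    refine ⟨(H212.mem_nzSet h0 hx).2 fun h => hI ?_, (H212.mem_nzSet h2 hx).2 fun h => hI2 ?_⟩
    · rw [h]; rfl
    · rw [h]; rfl
  have hcore := hC n X χ hχ φ hφ hθ q q (Nat.cast_nonneg q) (Nat.cast_nonneg q)
    (nzSet τ0 ∩ nzSet τ2) ((H212.isOpen_nzSet h0).inter (H212.isOpen_nzSet h2)) (uR χ φ τ0 τ2)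
    (fun g hg hdet => uR_struct hχ hφ hθ h0 h2 hp2 hg hdet) ν hν e x hx hmem hr v hv
  simp only [xi_uR hχ.toIsHermitian hφ h0 h2 hp2 hx hI hI2] at hcore
  have hne : τ2 e (e x) I / τ0 e (e x) I ≠ 0 := div_ne_zero hI2 hI
  have hsum : ∑ i, dz i (fun z => τ2 e z I / τ0 e z I) (e x) * v i = 0 := by
    have : (∑ i, dz i (fun z => τ2 e z I / τ0 e z I) (e x) * v i) =
        (τ2 e (e x) I / τ0 e (e x) I) * ∑ i, dz i (fun z => τ2 e z I / τ0 e z I) (e x) /
          (τ2 e (e x) I / τ0 e (e x) I) * v i := by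
      rw [Finset.mul_sum]
      refine Finset.sum_congr rfl fun i _ => ?_
      field_simp
    rw [this, hcore, mul_zero]
  have hf1 : DifferentiableAt ℂ (fun z => τ1 e z I / τ0 e z I) (e x) :=
    (a1.div a0 hI).differentiableAt
  have hf2 : DifferentiableAt ℂ (fun z => τ2 e z I / τ0 e z I) (e x) :=
    ((h2.holo e x hx I).div a0 hI).differentiableAt
  rw [← fderiv_eq_sum_dz hf2] at hsum
  rw [← hsum]
  have hev : (fun z => τ2 e z I / τ0 e z I) =ᶠ[𝓝 (e x)] fun z => τ1 e z I / τ0 e z I + c := by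
    filter_upwards [a0.continuousAt.eventually_ne hI] with z hz
    simp only [hτ2]
    field_simp
  rw [hev.fderiv_eq, fderiv_add_const]

end Vale.Agent.P281.H167.SA
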